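import Vale.Agent.P088.Bdl.B12

open Manifold Vale.Agent.P088.B
open scoped ContDiff

namespace Vale.Agent.Results.P088.EinsteinYangMills

/-- Einstein(-Yang-Mills) metrics and Yang-Mills connections are jointly determined, up to gauge,
by the data on one boundary patch. -/
theorem result {n N : ℕ} [NeZero n] (hn : 3 ≤ n) (hN : 1 ≤ N) {M : Type*} [TopologicalSpace M]
    [ChartedSpace (EuclideanHalfSpace n) M] [IsManifold (𝓡∂ n) ∞ M] [T2Space M] [CompactSpace M]
    [ConnectedSpace M] (Z : At n M) (hZ : Z = at_ n M) (Γ O : Set M) (hO : IsOpen O)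
    (hΓ : Γ = O ∩ bd Z) (hne : Γ.Nonempty) (P Q : Pair Z N) (κ₁ κ₂ α β : ℝ) (hP : EYM κ₁ α β P)
    (hQ : EYM κ₂ α β Q) (hdata : SameData Γ P Q) : Related Γ P Q :=
  final2 hn hN Z hZ Γ O hO hΓ hne P Q κ₁ κ₂ α β hP hQ hdata

end Vale.Agent.Results.P088.EinsteinYangMills
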